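import Vale.Agent.P141.H796.EVfd
import Vale.Agent.P141.H675.PhiX

/-!
# P141, line (A), flow part, hub `x1`: `b` against the moves of the slot

`phV2 : PartS H636.FDU PhV2`, from `ev_ZV`.
-/

namespace Vale.Agent.P141.H796

open Finset Matrix
open Vale.Agent.P141.PL (Pt iv ix cb cx)
open Vale.Agent.P141.H677 Vale.Agent.P141.H677.Sk
open Vale.Agent.P141.H186.PS
open Vale.Agent.P141.H277.Phi
open Vale.Agent.P141.H675.PX (PhV2 PartS.of_slot wot)

noncomputable section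

open scoped Classical

/-- the masses dominate the number `EV` -/
theorem ev_MM {q : H401.Num} {s r κ : ℝ} {K : ℕ} (ht : 0 < q.t) (ht1 : q.t ≤ 1) (hc : 0 ≤ q.c)
    (hd : 0 ≤ q.d) (hs : 0 < s) (hr : 1 ≤ r) (hκ : 1 ≤ κ) :
    (1 + Real.log (r / q.t)) * (s * 8 ^ K) ≤ MM q s r κ K := by
  have h1 := lgS_one ht ht1 hr hκ
  have hρ : 1 ≤ r / q.t := by
    rw [le_div_iff₀ ht]
    linarith
  have hl := Real.log_nonneg hρ
  have hk := Real.log_nonneg hκ
  have h2 : 1 + Real.log (r / q.t) ≤ lgS q r κ ^ 64 := by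
    refine le_trans ?_ (le_self_pow₀ h1 (by norm_num))
    unfold lgS
    linarith
  have h3 : (1 : ℝ) ≤ q.t ^ (-(64 * (q.c + q.d))) :=
    Real.one_le_rpow_of_pos_of_le_one_of_nonpos ht ht1 (by nlinarith)
  have h4 : s * 8 ^ K ≤ q.t ^ (-(64 * (q.c + q.d))) * s * 8 ^ K := by
    rw [mul_assoc]
    exact le_mul_of_one_le_left (by positivity) h3
  unfold MM
  exact mul_le_mul h2 h4 (by positivity) (by positivity)

/-- **`b` against the moves of the slot.** -/
theorem phV2 : PartS H636.FDU PhV2 := by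
  refine PartS.of_slot (fun q => 10 ^ 15 * q.e) ?_
  intro ι _ _ q n ez F1 F2 F3 o K x s r U g u v A b C R κ E h j e _ _ he0 _ _ _ _ _ hc _ hd _ _
    he _ _ _ ht ht1 _ _ _ ho hKn hs hr hcls hD hκ _ _ hS _ hj _
  obtain ⟨hF, _, Q1, Q2, Q3, v', hD⟩ := hD
  intro t' _
  refine (ev_ZV ht ht1 he0.le (by linarith) hs hr hKn ho hcls hF hD hS t' h hj e).trans ?_
  have h1 := ev_MM (K := K) ht ht1 hc hd.le hs hr hκ
  have hM := MM_nonneg (K := K) ht ht1 hs hr hκ
  have h2 : 10 ^ 15 * (1 + Real.log (r / q.t)) * (q.e * s * 8 ^ K) =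
      10 ^ 15 * q.e * ((1 + Real.log (r / q.t)) * (s * 8 ^ K)) := by ring
  rw [h2]
  calc 10 ^ 15 * q.e * ((1 + Real.log (r / q.t)) * (s * 8 ^ K)) ≤ 10 ^ 15 * q.e * MM q s r κ K :=
        mul_le_mul_of_nonneg_left h1 (by positivity)
    _ ≤ _ := mul_le_mul_of_nonneg_right (le_max_right _ _) hM

end

end Vale.Agent.P141.H796
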