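import Vale.Agent.P141.H771.VarB
import Vale.Agent.P141.H516.StopTr

/-!
# P141, line (A), TF: the number `EV` over the real tree

`var_real` : `H771.var_stop_top` on the tree stopped by the row height (`H516.stopT`), one `x1`.
-/

namespace Vale.Agent.P141.H796

open Finset Matrix
open Vale.Agent.P141.PL (iv ix hs mem_iv card_iv ix_ix)
open Vale.Agent.P141.H420 (Tr)
open Vale.Agent.P141.H43 (nsq nsq_nonneg)
open Vale.Agent.P141.H841 (Rs Rm)
open Vale.Agent.P141.H784 (Tie mem_iv')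
open Vale.Agent.P141.H516 (sT sT_alive sT_child sT_top iv_half iv_zero Ah Ah_up stopT form_le)
open Vale.Agent.P141.H771 (Mr Rs_congr var_stop_top)

noncomputable section

open scoped Classical

variable {ι : Type*} [Fintype ι] [DecidableEq ι]

/-- cells of the root on which, and above which, the row height is at most `2 h` -/
def A2 (n : ℕ) (S : ℤ) (G : ℕ → ℤ → Matrix ι ι ℝ) (h : ℝ) (k : ℕ) (q : ℤ) : Prop :=
  q ∈ iv (n - k) S ∧ Ah n G h k q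

omit [Fintype ι] [DecidableEq ι] in
theorem A2_up [Fintype ι] {n : ℕ} {S : ℤ} {G : ℕ → ℤ → Matrix ι ι ℝ} {h : ℝ} :
    ∀ k < n, ∀ p, A2 n S G h k p → A2 n S G h (k + 1) (p / 2) :=
  fun k hk p hp => ⟨(iv_half hk).2 hp.1, Ah_up k hk p hp.2⟩

variable {n : ℕ} {S : ℤ} {l h : ℝ} {G K : ℕ → ℤ → Matrix ι ι ℝ} {u : ℤ → ι → ℝ}
  {o x1 : ℤ} {s : ℕ → ℤ → ℤ → ℝ}

/-- the matrices of the flow at an alive cell -/
theorem MT_st {i : ℕ} (h1 : 1 ≤ i) (hi : i ≤ n) {q : ℤ} (ha : A2 n S G h i q)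
    {z : Matrix ι ι ℝ} :
    H677.MT l K i q = H677.MT l (sT n S (Ah n G h) z K) i q := by
  obtain ⟨j, rfl⟩ : ∃ j, i = j + 1 := ⟨i - 1, by omega⟩
  have hj : j < n := by omega
  have e0 : (2 * q) / 2 = q := by omega
  have e1 : (2 * q + 1) / 2 = q := by omega
  have i0 : 2 * q ∈ iv (n - j) S := by rw [← iv_half hj, e0]; exact ha.1
  have i1 : 2 * q + 1 ∈ iv (n - j) S := by rw [← iv_half hj, e1]; exact ha.1
  have e2 : sT n S (Ah n G h) z K (j + 1) q = K (j + 1) q :=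
    sT_alive Ah_up hi ha.1 ha.2
  have e : H483.hd (sT n S (Ah n G h) z K) (j + 1) q = H483.hd K (j + 1) q := by
    show (1 / 2 : ℝ) • (sT n S (Ah n G h) z K j (2 * q) - sT n S (Ah n G h) z K j (2 * q + 1)) =
      (1 / 2 : ℝ) • (K j (2 * q) - K j (2 * q + 1))
    rw [sT_child hj i0 (by rw [e0]; exact ha.2), sT_child hj i1 (by rw [e1]; exact ha.2)]
  unfold H677.MT
  rw [e, e2]

/-- **The number `EV` of TF, one `x1`, over the real tree.** -/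
theorem var_real (ht : Tr l n G K) (h0 : 0 ≤ h) (hr : (G n S).trace ≤ 4 * h)
    (hG : ∀ k p, (G k p - ((2 : ℝ) ^ k)⁻¹ • ∑ x ∈ iv k p, vecMulVec (u x) (u x)).PosSemidef)
    (hsA : ∀ i, 1 ≤ i → i ≤ n → ∀ a b, s i a b ≠ 0 → A2 n S G h i (o - 2 - ix i x1 - b - a))
    (hs1 : ∀ k a b, |s k a b| ≤ 1) (ho : o = 1 ∨ o = -1) (T sh : ℤ) (J : ℕ)
    (Ms : ℕ → Finset ℤ) {W : ℕ → ℤ → ℤ → ℝ} {e : ℝ} (he : 0 ≤ e)
    (hW0 : ∀ k x0 x2, 0 ≤ W k x0 x2)
    (hW : ∀ k ∈ Icc 1 n, ∀ i x2, ∑ x0 ∈ iv k i, W k x0 x2 ≤ e * 2 ^ k)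
    (hWA : ∀ k ∈ Icc 1 n, ∀ x0 x2, W k x0 x2 ≠ 0 → A2 n S G h k (ix k x2)) :
    ∑ x0 ∈ iv n T, ∑ k ∈ Icc 1 n, ∑ x2 ∈ iv n S,
      ∑ m ∈ (Ms k).filter (fun m => Tie k J (o - 2) x0 x1 x2 (m + ix k sh)), W k x0 x2 *
        nsq ((Rs (H677.MT l K) o x1 s n sh (k - 1) x0 (2 * m) -
          Rs (H677.MT l K) o x1 s n sh k x0 m) *ᵥ u x2) ≤
      120000000 * (2 * J + 13) ^ 4 * (1 + Real.log (1 + 4 * h / l)) *
        (e * 4 ^ n * (G n S).trace) := by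
  have hR := Rs_congr (Mx := H677.MT l K) (Mx' := Mr l n S K) (o := o) (x1 := x1) (s := s)
    (n := n) (fun i h1 h2 a b hab => by
      unfold Mr
      rw [if_pos (hsA i h1 h2 a b hab).1]) sh
  simp only [hR]
  have hst := stopT (M := S) ht (Ah_up (N := n) (G := G) (h := h))
  have h1 := var_stop_top (S := S) (u := u) (K := K) (x1 := x1) (s := s) (o := o) hst (Al := A2 n S G h) A2_up
    (fun k hk p hp => by
      rw [sT_alive Ah_up hk hp.1 hp.2]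
      exact hG k p)
    (fun i h1 h2 q hq => MT_st h1 h2 hq) (P := 4 * h) (by linarith)
    (fun m v => form_le ht h0 hr (Nat.zero_le n) m v) hsA hs1 ho T sh J Ms he hW0 hW hWA
  rw [sT_top] at h1
  exact h1

end

end Vale.Agent.P141.H796
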