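import Vale.Agent.P141.H796.EVreal
import Vale.Agent.P141.H677.GenM
import Vale.Agent.P141.H401.CutUV
import Vale.Agent.P141.H43.SeamPM
import Vale.Agent.P141.H58.EWn
import Vale.Agent.P141.H505.SkelStack1
import Vale.Agent.P141.H585.PairRXS

/-!
# P141, line (A), TF: the number `EV` at class data

* `mt`, `tie8` : the cells of `x3` of the shifted grid over a cell of `x2`;
* `alive_A2`, `sgn_A2` : alive squares and signs lie on the stopped tree;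
* `x1_le` : one `x1`, family `b` at the times `k` and `k + 1`;
* `ev_pt` : all points; `ev_GW` : in the letters of `GW`, any `w ≤ nsq`;
* `ev_var` : the field `NumB.var` of `H505.Sk1`; `ev_ZB` : the number `hZB` of `H585.PairR`.
-/

namespace Vale.Agent.P141.H796

open Finset Matrix
open Vale.Agent.P141.PL (Pt iv ix hs mem_iv card_iv ix_ix cx)
open Vale.Agent.P141.PL.H315 (Tri)
open Vale.Agent.P141.PL.H317 (crn)
open Vale.Agent.P141.H48 (BSl sst cst)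
open Vale.Agent.P141.H43 (nsq nsq_nonneg)
open Vale.Agent.P141.H43.Seam (DQ)
open Vale.Agent.P141.H841 (Rs Rm ix_bd ix_of)
open Vale.Agent.P141.H784 (Tie)
open Vale.Agent.P141.H771 (sum_cells)
open Vale.Agent.P141.H677 (GT KT tr_T GT_trace GT_psd MT sN mem_sN kF rv)
open Vale.Agent.P141.H677.Sk (FamA FamV Slt FDs SlotN lam1)
open Vale.Agent.P141.H747 (RgS RgS_avv RgS_mart shB sft)
open Vale.Agent.P141.H795 (ys)
open Vale.Agent.P141.H401 (mb FibU)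
open Vale.Agent.P141.H305 (ClsM)
open Vale.Agent.P141.H103 (GW)

noncomputable section

open scoped Classical

set_option linter.unusedSectionVars false

variable {ι : Type} [Fintype ι] [DecidableEq ι]

/-! ### Geometry -/

theorem ix_sub_cell (k : ℕ) (a b : ℤ) :
    ∃ δ ∈ ({0, 1} : Finset ℤ), ix k (a - b) = ix k a - ix k b - δ := by
  have hP : (0 : ℤ) < 2 ^ k := by positivity
  obtain ⟨a1, a2⟩ := ix_bd k a
  obtain ⟨b1, b2⟩ := ix_bd k b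
  by_cases h : 2 ^ k * (ix k a - ix k b) ≤ a - b
  · refine ⟨0, by simp, ?_⟩
    rw [sub_zero]
    exact ix_of h (by linarith)
  · refine ⟨1, by simp, ?_⟩
    rw [not_le] at h
    exact ix_of (by linarith) (by linarith)

/-- the cell of `x3` over the cell `q` of `x2`, `δ = 0, 1` -/
def mt (h : Pt) (j : ℤ) (k : ℕ) (x1 x0 q δ : ℤ) : ℤ :=
  ix k (ys (-x0) h) - j - ix k (x1 - h.1) - (q - ix k h.2.1 - δ)

theorem tie8 {o : ℤ} (ho : o = 1 ∨ o = -1) (k : ℕ) {j δ : ℤ} (hj : j ∈ Icc (0 : ℤ) 2)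
    (hδ : δ ∈ ({0, 1} : Finset ℤ)) (h : Pt) (x0 x1 x2 : ℤ) :
    Tie k 8 (o - 2) x0 x1 x2 (mt h j k x1 x0 (ix k x2) δ + ix k h.2.2) := by
  have hP : (0 : ℤ) < 2 ^ k := by positivity
  rw [mem_Icc] at hj
  have hδ' : 0 ≤ δ ∧ δ ≤ 1 := by
    rw [mem_insert, mem_singleton] at hδ
    omega
  obtain ⟨a1, a2⟩ := ix_bd k x0
  obtain ⟨b1, b2⟩ := ix_bd k x1
  obtain ⟨c1, c2⟩ := ix_bd k (ys (-x0) h)
  obtain ⟨d1, d2⟩ := ix_bd k (x1 - h.1)
  obtain ⟨e1, e2⟩ := ix_bd k h.2.1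
  obtain ⟨f1, f2⟩ := ix_bd k h.2.2
  have hy : ys (-x0) h = -x0 + 3 - h.1 - h.2.1 - h.2.2 := rfl
  have j1 := mul_nonneg hP.le hj.1
  have j2 := mul_le_mul_of_nonneg_left hj.2 hP.le
  have k1 := mul_nonneg hP.le hδ'.1
  have k2 := mul_le_mul_of_nonneg_left hδ'.2 hP.le
  unfold H784.Tie mt
  rw [abs_le]
  push_cast
  constructor
  · refine le_of_mul_le_mul_left (a := (2 : ℤ) ^ k) ?_ hP
    rcases ho with rfl | rfl <;> linarith
  · refine le_of_mul_le_mul_left (a := (2 : ℤ) ^ k) ?_ hP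
    rcases ho with rfl | rfl <;> linarith

/-! ### Rows -/

omit [DecidableEq ι] in
theorem nsq_rows (D : Matrix ι ι ℝ) (v : ι → ℝ) : nsq (D *ᵥ v) = ∑ i, (v ⬝ᵥ D i) ^ 2 := by
  unfold nsq
  show ∑ i, (D i ⬝ᵥ v) * (D i ⬝ᵥ v) = _
  refine sum_congr rfl fun i _ => ?_
  rw [dotProduct_comm v, sq]

omit [DecidableEq ι] in
theorem row_le {f g : ℤ → ι → ℝ} {I : Finset ℤ}
    (h : ∀ w, ∑ y ∈ I, (f y ⬝ᵥ w) ^ 2 ≤ ∑ y ∈ I, (g y ⬝ᵥ w) ^ 2) (D : Matrix ι ι ℝ) :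
    ∑ y ∈ I, nsq (D *ᵥ f y) ≤ ∑ y ∈ I, nsq (D *ᵥ g y) := by
  simp only [nsq_rows]
  rw [sum_comm, sum_comm (s := I)]
  exact sum_le_sum fun i _ => h (D i)

omit [DecidableEq ι] in
/-- one scale, one `x0`, one `x1` -/
theorem scale_le {K k : ℕ} (hk : k ≤ K) {S : ℤ} {h : Pt} {j x0 x1 : ℤ}
    (Dm : ℤ → Matrix ι ι ℝ) {f g : ℤ → ι → ℝ}
    (hrow : ∀ p w, ∑ y ∈ iv k p, (f y ⬝ᵥ w) ^ 2 ≤ ∑ y ∈ iv k p, (g y ⬝ᵥ w) ^ 2) :
    ∑ x2 ∈ iv K S, nsq (Dm (ix k (ys (-x0) h) - j - ix k (x1 - h.1) - ix k (x2 - h.2.1)) *ᵥ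
      f x2) ≤
    ∑ x2 ∈ iv K S, ∑ δ ∈ ({0, 1} : Finset ℤ),
      nsq (Dm (mt h j k x1 x0 (ix k x2) δ) *ᵥ g x2) := by
  rw [sum_cells hk, sum_cells hk]
  refine sum_le_sum fun p _ => ?_
  have h1 : ∀ x2 ∈ iv k p,
      nsq (Dm (ix k (ys (-x0) h) - j - ix k (x1 - h.1) - ix k (x2 - h.2.1)) *ᵥ f x2) ≤
      ∑ δ ∈ ({0, 1} : Finset ℤ), nsq (Dm (mt h j k x1 x0 p δ) *ᵥ f x2) := by
    intro x2 hx2
    obtain ⟨δ, hδ, e⟩ := ix_sub_cell k x2 h.2.1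
    rw [e, mem_iv.1 hx2]
    exact single_le_sum (f := fun δ => nsq (Dm (mt h j k x1 x0 p δ) *ᵥ f x2))
      (fun _ _ => nsq_nonneg _) hδ
  refine (sum_le_sum h1).trans ?_
  have h2 : ∑ x2 ∈ iv k p, ∑ δ ∈ ({0, 1} : Finset ℤ),
      nsq (Dm (mt h j k x1 x0 (ix k x2) δ) *ᵥ g x2) =
      ∑ δ ∈ ({0, 1} : Finset ℤ), ∑ x2 ∈ iv k p, nsq (Dm (mt h j k x1 x0 p δ) *ᵥ g x2) := by
    rw [sum_comm]
    refine sum_congr rfl fun δ _ => sum_congr rfl fun x2 hx2 => ?_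
    rw [mem_iv.1 hx2]
  rw [h2, sum_comm]
  exact sum_le_sum fun δ _ => row_le (hrow p) _

/-! ### Lines -/

theorem line_le {a N : ℕ} (h : a ≤ N) {f : ℤ → ℝ} {e : ℝ}
    (hf : ∀ m, ∑ z ∈ iv a m, f z ≤ e * 2 ^ a) (i : ℤ) : ∑ z ∈ iv N i, f z ≤ e * 2 ^ N := by
  rw [sum_cells h]
  refine (sum_le_sum fun m _ => hf m).trans (le_of_eq ?_)
  rw [sum_const, card_iv, nsmul_eq_mul]
  push_cast
  have : (2 : ℝ) ^ N = 2 ^ (N - a) * 2 ^ a := by rw [← pow_add, Nat.sub_add_cancel h]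
  rw [this]
  ring

theorem kF_sq (Λ : ℝ) (a : ℤ × ℤ → ℝ) (K : ℕ) (F : ℕ → Pt → ℝ) (k : ℕ) (q : Pt) :
    kF Λ a K F k q ^ 2 ≤ F k q ^ 2 := by
  unfold H677.kF
  split_ifs
  · rw [zero_pow two_ne_zero]
    exact sq_nonneg _
  · exact le_rfl

theorem kF_line {n : ℕ} {e cP : ℝ} {F : ℕ → Pt → ℝ} {Q : ℕ → Pt → Prop} (B : BSl n e cP F Q)
    (he : 0 ≤ e) (Λ : ℝ) (a : ℤ × ℤ → ℝ) (K : ℕ) {k τ : ℕ} (hk : k < n) (hτ : τ ≤ 1)
    (i x1 x2 : ℤ) :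
    ∑ x0 ∈ iv (k + 1) i, kF Λ a K F (k + τ) (x0, x1, x2) ^ 2 ≤ e * 2 ^ (k + 1) := by
  rcases Nat.eq_zero_or_pos τ with rfl | h1
  · rw [add_zero]
    rcases Nat.eq_zero_or_pos k with rfl | h2
    · have : ∀ x0 : ℤ, kF Λ a K F 0 (x0, x1, x2) ^ 2 = 0 := by
        intro x0
        unfold H677.kF
        rw [if_pos (Or.inl rfl), zero_pow two_ne_zero]
      simp only [this, sum_const_zero]
      positivity
    · obtain ⟨k', rfl⟩ : ∃ k', k = k' + 1 := ⟨k - 1, by omega⟩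
      refine (sum_le_sum fun x0 _ => kF_sq ..).trans ?_
      exact line_le (a := k') (by omega) (fun m => B.l0 k' (by omega) m x1 x2) i
  · have : τ = 1 := by omega
    subst this
    refine (sum_le_sum fun x0 _ => kF_sq ..).trans ?_
    exact line_le (a := k) (by omega) (fun m => B.l0 k hk m x1 x2) i

/-! ### The stopped tree at class data -/

section cls

variable {p : H401.Num} {K : ℕ} {x : Pt} {s r : ℝ} {U : Tri} {u : ℤ → ℤ → ι → ℝ}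

theorem lam1_nn (ht : 0 < p.t) (hr : 1 ≤ r) : 0 ≤ lam1 p s r := by
  unfold H677.Sk.lam1
  have : 0 < p.t ^ (-8 : ℝ) := Real.rpow_pos_of_pos ht _
  have : 0 < r ^ (8 : ℝ) := Real.rpow_pos_of_pos (by linarith) _
  positivity

theorem row_lam1 (ht : 0 < p.t) (ht1 : p.t ≤ 1) (hr : 1 ≤ r) : r * √s ≤ lam1 p s r := by
  unfold H677.Sk.lam1
  have h1 : (1 : ℝ) ≤ p.t ^ (-8 : ℝ) :=
    Real.one_le_rpow_of_pos_of_le_one_of_nonpos ht ht1 (by norm_num)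
  have h2 : r ≤ r ^ (8 : ℝ) := by
    calc r = r ^ (1 : ℝ) := (Real.rpow_one r).symm
      _ ≤ r ^ (8 : ℝ) := Real.rpow_le_rpow_of_exponent_le hr (by norm_num)
  have h3 : 0 ≤ √s := Real.sqrt_nonneg s
  have h4 : r * √s ≤ r ^ (8 : ℝ) * √s := mul_le_mul_of_nonneg_right h2 h3
  have h5 : 0 ≤ r ^ (8 : ℝ) * √s := mul_nonneg (by linarith) h3
  nlinarith

/-- **alive squares lie on the stopped tree** -/
theorem alive_A2 (hF : FibU p K x s r U u) (hl : 0 ≤ lam1 p s r) {x1 : ℤ}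
    (hx1 : x1 ∈ iv K (ix K x.1)) {k : ℕ} (hk : k ≤ K) {x2 : ℤ} (hx2 : x2 ∈ iv K (ix K x.2.1))
    (ha : ¬ sst p.Lm U.1 K k x1 x2) :
    A2 K (ix K x.2.1) (GT u x1) (lam1 p s r) k (ix k x2) := by
  refine ⟨?_, fun i hi => ?_⟩
  · rw [mem_iv, ix_ix, Nat.add_sub_cancel' hk]
    exact mem_iv.1 hx2
  · have e1 : ix k x2 / 2 ^ i = ix (k + i) x2 := by
      rw [← ix_ix]
      rfl
    rw [e1, GT_trace]
    have h1 := hF (k + i) hi x1 hx1 x2 hx2 fun ⟨m, a1, a2, a3⟩ => ha ⟨m, by omega, a2, a3⟩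
    have h2 := mul_le_mul_of_nonneg_left h1 (by positivity : (0 : ℝ) ≤ ((2 : ℝ) ^ (k + i))⁻¹)
    refine h2.trans ?_
    have e2 : ((2 : ℝ) ^ (k + i))⁻¹ * (lam1 p s r * 2 ^ (k + i)) = lam1 p s r := by
      field_simp
    rw [e2]
    linarith

/-- **the signs lie on the stopped tree** -/
theorem sgn_A2 (hF : FibU p K x s r U u) (hl : 0 ≤ lam1 p s r) {x1 : ℤ}
    (hx1 : x1 ∈ iv K (ix K x.1)) {k : ℕ} (hk : k ≤ K) {o a b : ℤ}
    (hm : ((b, o - 2 - a - ix k x1 - b, ix k x1) : Pt) ∈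
      sN (p.al U K) o K (cx K x) (2 ^ k * a) k) :
    A2 K (ix K x.2.1) (GT u x1) (lam1 p s r) k (o - 2 - ix k x1 - b - a) := by
  rw [mem_sN] at hm
  obtain ⟨h1, _, h3⟩ := hm
  have e0 : o - 2 - ix k x1 - b - a = o - 2 - a - ix k x1 - b := by ring
  rw [e0]
  set c : ℤ := o - 2 - a - ix k x1 - b with hc
  have ec : ix k (2 ^ k * c) = c := H677.ix_two k c
  have eb : ix k (2 ^ k * b) = b := H677.ix_two k b
  have hz : cx k (x1, 2 ^ k * c, 2 ^ k * b) = rv (b, c, ix k x1) := by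
    unfold PL.cx H677.rv
    rw [ec, eb]
  have h4 : ¬ cst p.Lm U K k (x1, 2 ^ k * c, 2 ^ k * b) := by
    rw [← H48.cst_crn, hz]
    exact h3
  have h5 : ¬ sst p.Lm U.1 K k x1 (2 ^ k * c) := fun h => h4 (Or.inl h)
  have h6 : c ∈ iv (K - k) (ix K x.2.1) := by
    unfold PL.H560.cbs at h1
    rw [mem_product, mem_product] at h1
    exact h1.2.1
  have h7 : (2 : ℤ) ^ k * c ∈ iv K (ix K x.2.1) := by
    rw [mem_iv] at h6 ⊢
    rw [← h6]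
    have e7 : ix K (2 ^ k * c) = ix (K - k) (ix k (2 ^ k * c)) := by
      rw [ix_ix, Nat.add_sub_cancel' hk]
    rw [e7, ec]
  have h8 := alive_A2 hF hl hx1 hk h7 h5
  rw [ec] at h8
  exact h8

/-! ### The slot -/

/-- the half difference of the averaged slot as a difference of `Rs` -/
theorem DQ_Rs {R : Slt ι} {l : ℝ} {o : ℤ} {σ : ℤ → ℕ → ℤ → ℤ → ℝ}
    (hR : ∀ x0 j z x1, R x0 j z x1 = Rm (MT l (KT l u x1)) o x1 (σ x1) K j x0 z) (h : Pt)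
    (x0 x1 : ℤ) (k : ℕ) (m : ℤ) :
    DQ (RgS R h.2.2 h.1 x0) (k + 1) m (x1 - h.1) =
      Rs (MT l (KT l u x1)) o x1 (σ x1) K h.2.2 k x0 (2 * m) -
        Rs (MT l (KT l u x1)) o x1 (σ x1) K h.2.2 (k + 1) x0 m := by
  have e : ∀ (k : ℕ) (n : ℤ), RgS R h.2.2 h.1 x0 k n (x1 - h.1) =
      Rs (MT l (KT l u x1)) o x1 (σ x1) K h.2.2 k x0 n := by
    intro k n
    rw [RgS_avv]
    unfold H841.Rs
    congr 1
    funext w
    rw [sub_add_cancel, hR]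
  have h1 := H43.Seam.Q_left (Q := RgS R h.2.2 h.1 x0) (RgS_mart R h.2.2 h.1 x0) k m (x1 - h.1)
  rw [← e, ← e, h1]
  abel

theorem sum_range_Icc (K : ℕ) (f : ℕ → ℝ) : ∑ k ∈ range K, f (k + 1) = ∑ k ∈ Icc 1 K, f k := by
  rw [range_eq_Ico, sum_Ico_add' f 0 K 1]
  rfl

/-- the weight -/
def Wk (p : H401.Num) (U : Tri) (K : ℕ) (F3 : ℕ → Pt → ℝ) (S x1 : ℤ) (τ k : ℕ) (x0 x2 : ℤ) : ℝ :=
  if x2 ∈ iv K S then kF p.Lm U.1 K F3 (k - 1 + τ) (x0, x1, x2) ^ 2 else 0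

variable {n : ℕ} {ez : ℝ} {F1 F2 F3 : ℕ → Pt → ℝ} {g : ℤ → ℤ → ℝ} {v : ℤ → ℤ → ι → ℝ}
  {A : FamA} {b C : FamV ι} {Q1 Q2 Q3 : ℕ → Pt → Prop} {v' : ℤ → ℤ → ι → ℝ}
  {R : Slt ι} {κ E P κ0 : ℝ} {o : ℤ}

theorem nsq_smul' (c : ℝ) (D : Matrix ι ι ℝ) (w : ι → ℝ) :
    nsq (D *ᵥ (c • w)) = c ^ 2 * nsq (D *ᵥ w) := by
  unfold nsq
  rw [mulVec_smul, smul_dotProduct, dotProduct_smul, smul_eq_mul, smul_eq_mul]
  ring

/-- **One `x1`**, the family `b` at the time `k + τ`. -/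
theorem x1_le (ht : 0 < p.t) (ht1 : p.t ≤ 1) (he : 0 ≤ p.e) (hs : 0 < s) (hr : 1 ≤ r)
    (hKn : K ≤ n) (ho : o = 1 ∨ o = -1) (hC : ClsM K x s r P κ0 U g u v)
    (hF : FibU p K x s r U u)
    (hD : FDs p n ez F1 F2 F3 K x s r U g u v A b C Q1 Q2 Q3 v')
    {σ : ℤ → ℕ → ℤ → ℤ → ℝ} (hσ1 : ∀ x1 k a b, |σ x1 k a b| ≤ 1)
    (hσ2 : ∀ x1 k a b, ((b, o - 2 - a - ix k x1 - b, ix k x1) : Pt) ∉
      sN (p.al U K) o K (cx K x) (2 ^ k * a) k → σ x1 k a b = 0)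
    (hR : ∀ x0 j z x1, R x0 j z x1 =
      Rm (MT (p.lam s r) (KT (p.lam s r) u x1)) o x1 (σ x1) K j x0 z)
    (t : ℤ) (h : Pt) {j : ℤ} (hj : j ∈ Icc (0 : ℤ) 2) {τ : ℕ} (hτ : τ ≤ 1) {x1 : ℤ}
    (hx1 : x1 ∈ iv K (ix K x.1)) :
    ∑ x0 ∈ iv K t, ∑ k ∈ range K, ∑ x2 ∈ iv K (ix K x.2.1),
      nsq (DQ (RgS R h.2.2 h.1 x0) (k + 1) (ix (k + 1) (ys (-x0) h) - j -
        ix (k + 1) (x1 - h.1) - ix (k + 1) (x2 - h.2.1)) (x1 - h.1) *ᵥ b x0 (k + τ) x1 x2) ≤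
      120000000 * (2 * (8 : ℕ) + 13) ^ 4 *
        (1 + Real.log (1 + 4 * lam1 p s r / p.lam s r)) *
        (p.e * 4 ^ K * (GT u x1 K (ix K x.2.1)).trace) := by
  have hl : 0 < p.lam s r := H401.Num.lam_pos (p := p) ht hs hr
  have h0 : 0 ≤ lam1 p s r := lam1_nn ht hr
  set S : ℤ := ix K x.2.1 with hS
  set Mx := MT (p.lam s r) (KT (p.lam s r) u x1) with hMx
  set dd : Finset ℤ := {0, 1} with hdd
  set Ms : ℕ → Finset ℤ := fun κ => (iv K t ×ˢ iv K S ×ˢ dd).image fun z =>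
    mt h j κ x1 z.1 (ix κ z.2.1) z.2.2 with hMs
  have hx : x1 ∈ PL.H315.iv K x.1 := by
    rw [H769.iv_pt]
    exact hx1
  have hroot : (GT u x1 K S).trace ≤ 4 * lam1 p s r := by
    have h1 : (GT u x1 K S).trace ≤ r * √s := by
      rw [GT_trace, H677.Sk.mean_cell]
      have h2 := hC.u_row x1 hx
      rw [H769.iv_pt] at h2
      exact h2
    have h2 := row_lam1 (p := p) (s := s) ht ht1 hr
    linarith
  have key := var_real (ι := ι) (n := K) (S := S) (u := u x1) (o := o) (x1 := x1) (s := σ x1)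
    (tr_T hl K u x1) h0 hroot (fun k q => ?_) (fun i h1 h2 a b hab => ?_) (hσ1 x1) ho t h.2.2 8
    Ms (W := Wk p U K F3 S x1 τ) he (fun k x0 x2 => ?_) (fun k hk i x2 => ?_)
    (fun k hk x0 x2 hw => ?_)
  · refine le_trans ?_ key
    refine sum_le_sum fun x0 hx0 => ?_
    rw [← sum_range_Icc K fun k => ∑ x2 ∈ iv K S,
      ∑ m ∈ (Ms k).filter (fun m => Tie k 8 (o - 2) x0 x1 x2 (m + ix k h.2.2)),
        Wk p U K F3 S x1 τ k x0 x2 * nsq ((Rs Mx o x1 (σ x1) K h.2.2 (k - 1) x0 (2 * m) -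
          Rs Mx o x1 (σ x1) K h.2.2 k x0 m) *ᵥ u x1 x2)]
    refine sum_le_sum fun k hk => ?_
    rw [mem_range] at hk
    have hrow : ∀ q w, ∑ y ∈ iv (k + 1) q, (b x0 (k + τ) x1 y ⬝ᵥ w) ^ 2 ≤
        ∑ y ∈ iv (k + 1) q, (mb p U K u F3 x0 (k + τ) x1 y ⬝ᵥ w) ^ 2 := by
      intro q w
      rcases Nat.eq_zero_or_pos τ with h1 | h1
      · subst h1
        rw [sum_cells (Nat.le_succ k), sum_cells (Nat.le_succ k)]
        exact sum_le_sum fun m _ => hD.rowb k hk.le k (Or.inl rfl) x0 x1 m w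
      · have : τ = 1 := by omega
        subst this
        exact hD.rowb (k + 1) hk (k + 1) (Or.inl rfl) x0 x1 q w
    refine (scale_le (k := k + 1) hk (fun m => DQ (RgS R h.2.2 h.1 x0) (k + 1) m (x1 - h.1))
      hrow).trans ?_
    refine sum_le_sum fun x2 hx2 => ?_
    have e1 : ∀ δ : ℤ, nsq (DQ (RgS R h.2.2 h.1 x0) (k + 1)
        (mt h j (k + 1) x1 x0 (ix (k + 1) x2) δ) (x1 - h.1) *ᵥ mb p U K u F3 x0 (k + τ) x1 x2) =
        (fun m => Wk p U K F3 S x1 τ (k + 1) x0 x2 *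
          nsq ((Rs Mx o x1 (σ x1) K h.2.2 (k + 1 - 1) x0 (2 * m) -
            Rs Mx o x1 (σ x1) K h.2.2 (k + 1) x0 m) *ᵥ u x1 x2))
          (mt h j (k + 1) x1 x0 (ix (k + 1) x2) δ) := by
      intro δ
      rw [DQ_Rs hR]
      show nsq (_ *ᵥ (kF p.Lm U.1 K F3 (k + τ) (x0, x1, x2) • u x1 x2)) = _
      rw [nsq_smul']
      unfold Wk
      rw [if_pos hx2, Nat.add_sub_cancel]
    rw [sum_congr rfl fun δ _ => e1 δ, ← sum_image
      (f := fun m => Wk p U K F3 S x1 τ (k + 1) x0 x2 *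
        nsq ((Rs Mx o x1 (σ x1) K h.2.2 (k + 1 - 1) x0 (2 * m) -
          Rs Mx o x1 (σ x1) K h.2.2 (k + 1) x0 m) *ᵥ u x1 x2))
      (g := fun δ => mt h j (k + 1) x1 x0 (ix (k + 1) x2) δ)]
    · refine sum_le_sum_of_subset_of_nonneg ?_ fun m _ _ => ?_
      · intro m hm
        rw [mem_image] at hm
        obtain ⟨δ, hδ, rfl⟩ := hm
        rw [mem_filter]
        refine ⟨?_, tie8 ho (k + 1) hj hδ h x0 x1 x2⟩
        simp only [hMs, mem_image, mem_product]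
        exact ⟨(x0, x2, δ), ⟨hx0, hx2, hδ⟩, rfl⟩
      · refine mul_nonneg ?_ (nsq_nonneg _)
        unfold Wk
        rw [if_pos hx2]
        exact sq_nonneg _
    · intro a _ c _ hac
      unfold mt at hac
      linarith
  · have e : GT u x1 k q - ((2 : ℝ) ^ k)⁻¹ • ∑ y ∈ iv k q, vecMulVec (u x1 y) (u x1 y) = 0 := by
      unfold H677.GT H677.mT
      exact sub_self _
    rw [e]
    exact PosSemidef.zero
  · refine sgn_A2 hF h0 hx1 h2 ?_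
    by_contra hn
    exact hab (hσ2 x1 i a b hn)
  · unfold Wk
    split_ifs
    · exact sq_nonneg _
    · exact le_rfl
  · obtain ⟨k, rfl⟩ : ∃ k', k = k' + 1 := ⟨k - 1, by rw [mem_Icc] at hk; omega⟩
    rw [mem_Icc] at hk
    unfold Wk
    by_cases hx2 : x2 ∈ iv K S
    · simp only [if_pos hx2, Nat.add_sub_cancel]
      exact kF_line hD.B3 he _ _ K (by omega) hτ i x1 x2
    · simp only [if_neg hx2, sum_const_zero]
      positivity
  · obtain ⟨k, rfl⟩ : ∃ k', k = k' + 1 := ⟨k - 1, by rw [mem_Icc] at hk; omega⟩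
    rw [mem_Icc] at hk
    unfold Wk at hw
    by_cases hx2 : x2 ∈ iv K S
    · rw [if_pos hx2, Nat.add_sub_cancel] at hw
      refine alive_A2 hF h0 hx1 hk.2 hx2 fun ⟨m, a1, a2, a3⟩ => hw ?_
      unfold H677.kF
      rw [if_pos (Or.inr ⟨m, by omega, a2, a3⟩), zero_pow two_ne_zero]
    · rw [if_neg hx2] at hw
      exact absurd rfl hw

/-! ### The sum over `x1` -/

theorem log_lam (ht : 0 < p.t) (ht1 : p.t ≤ 1) (he0 : 0 ≤ p.e0) (hs : 0 < s) (hr : 1 ≤ r) :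
    1 + Real.log (1 + 4 * lam1 p s r / p.lam s r) ≤ 10 * (1 + Real.log (r / p.t)) := by
  have hr0 : 0 < r := by linarith
  have hS : 0 < √s := Real.sqrt_pos.2 hs
  have hρ : 1 ≤ r / p.t := by
    rw [le_div_iff₀ ht]
    linarith
  have hl : 0 < p.lam s r := H401.Num.lam_pos (p := p) ht hs hr
  have h1 : lam1 p s r ≤ p.lam s r * (r / p.t) ^ 10 := by
    unfold H677.Sk.lam1 H401.Num.lam
    have e1 : p.t ^ (2 - p.e0) = p.t ^ (-p.e0) * (p.t ^ (-8 : ℝ) * p.t ^ (10 : ℝ)) := by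
      rw [← Real.rpow_add ht, ← Real.rpow_add ht]
      congr 1
      ring
    have e2 : r ^ (8 : ℝ) ≤ r ^ 10 := by
      rw [← Real.rpow_natCast r 10]
      exact Real.rpow_le_rpow_of_exponent_le hr (by norm_num)
    have e3 : p.t ^ (10 : ℝ) = p.t ^ 10 := by
      rw [← Real.rpow_natCast p.t 10]
      norm_num
    have e4 : p.t ^ (2 - p.e0) * √s * r ^ p.e0 * (r / p.t) ^ 10 =
        (p.t ^ (-p.e0) * r ^ p.e0) * (p.t ^ (-8 : ℝ) * √s * r ^ 10) := by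
      rw [e1, e3]
      field_simp
    rw [e4]
    have h2 : (1 : ℝ) ≤ p.t ^ (-p.e0) :=
      Real.one_le_rpow_of_pos_of_le_one_of_nonpos ht ht1 (by linarith)
    have h3 : (1 : ℝ) ≤ r ^ p.e0 := Real.one_le_rpow hr he0
    have h4 : (1 : ℝ) ≤ p.t ^ (-p.e0) * r ^ p.e0 := by nlinarith
    have h5 : 0 < p.t ^ (-8 : ℝ) := Real.rpow_pos_of_pos ht _
    have h6 : p.t ^ (-8 : ℝ) * √s * r ^ (8 : ℝ) ≤ p.t ^ (-8 : ℝ) * √s * r ^ 10 :=
      mul_le_mul_of_nonneg_left e2 (by positivity)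
    refine h6.trans ?_
    exact le_mul_of_one_le_left (by positivity) h4
  have h2 : 4 * lam1 p s r / p.lam s r ≤ 4 * (r / p.t) ^ 10 := by
    rw [div_le_iff₀ hl]
    linarith
  have h3 : (1 : ℝ) ≤ (r / p.t) ^ 10 := one_le_pow₀ hρ
  have h4 : 0 ≤ 4 * lam1 p s r / p.lam s r := by
    have := lam1_nn (p := p) (s := s) ht hr
    positivity
  have h5 : Real.log (1 + 4 * lam1 p s r / p.lam s r) ≤ Real.log (5 * (r / p.t) ^ 10) :=
    Real.log_le_log (by linarith) (by linarith)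
  rw [Real.log_mul (by norm_num) (by positivity), Real.log_pow] at h5
  have h6 : Real.log 5 ≤ 4 := by
    have := Real.log_le_sub_one_of_pos (show (0 : ℝ) < 5 by norm_num)
    linarith
  push_cast at h5
  linarith

/-- the sum over a shifted cell, the function cut to the root -/
theorem shift_le (I J : Finset ℤ) (a : ℤ) {f g : ℤ → ℝ} (hg : ∀ y ∈ J, 0 ≤ g y)
    (h1 : ∀ x ∈ I, x + a ∈ J → f x ≤ g (x + a)) (h0 : ∀ x ∈ I, x + a ∉ J → f x ≤ 0) :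
    ∑ x ∈ I, f x ≤ ∑ y ∈ J, g y := by
  have e1 : ∑ x ∈ I, f x ≤ ∑ x ∈ I.filter (fun x => x + a ∈ J), g (x + a) := by
    rw [sum_filter]
    refine sum_le_sum fun x hx => ?_
    split_ifs with h
    · exact h1 x hx h
    · exact h0 x hx h
  refine e1.trans ?_
  rw [← sum_image (f := g) (g := fun x => x + a) fun x _ y _ hxy => by simpa using hxy]
  refine sum_le_sum_of_subset_of_nonneg (fun y hy => ?_) fun y hy _ => hg y hy
  rw [mem_image] at hy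
  obtain ⟨x, hx, rfl⟩ := hy
  exact (mem_filter.1 hx).2

/-- **The number `EV` at class data, points of the shifted grid.** -/
theorem ev_pt (ht : 0 < p.t) (ht1 : p.t ≤ 1) (he0 : 0 ≤ p.e0) (he : 0 ≤ p.e) (hs : 0 < s)
    (hr : 1 ≤ r) (hKn : K ≤ n) (ho : o = 1 ∨ o = -1) (hC : ClsM K x s r P κ0 U g u v)
    (hF : FibU p K x s r U u)
    (hD : FDs p n ez F1 F2 F3 K x s r U g u v A b C Q1 Q2 Q3 v')
    (hS : SlotN (p.al U K) o K (cx K x) (p.lam s r) u R κ E)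
    (t : ℤ) (h : Pt) {j : ℤ} (hj : j ∈ Icc (0 : ℤ) 2) {τ : ℕ} (hτ : τ ≤ 1) (S1 S2 : ℤ) :
    ∑ x0 ∈ iv K t, ∑ k ∈ range K, ∑ x' ∈ iv K S1, ∑ y' ∈ iv K S2,
      nsq (DQ (RgS R h.2.2 h.1 x0) (k + 1) (ix (k + 1) (ys (-x0) h) - j -
        ix (k + 1) x' - ix (k + 1) y') x' *ᵥ shB K (cx K x) h (b x0) (k + τ) x' y') ≤
      10 ^ 15 * (1 + Real.log (r / p.t)) * (p.e * s * 8 ^ K) := by
  obtain ⟨σ, hσ1, hσ2, hR⟩ := hS.sgn
  have hl : 0 < p.lam s r := H401.Num.lam_pos (p := p) ht hs hr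
  have h0 : 0 ≤ lam1 p s r := lam1_nn ht hr
  have hx0 : ∀ x0 : ℤ, ∀ k : ℕ, ∑ x' ∈ iv K S1, ∑ y' ∈ iv K S2,
      nsq (DQ (RgS R h.2.2 h.1 x0) (k + 1) (ix (k + 1) (ys (-x0) h) - j -
        ix (k + 1) x' - ix (k + 1) y') x' *ᵥ shB K (cx K x) h (b x0) (k + τ) x' y') ≤
      ∑ x1 ∈ iv K (ix K x.1), ∑ x2 ∈ iv K (ix K x.2.1),
      nsq (DQ (RgS R h.2.2 h.1 x0) (k + 1) (ix (k + 1) (ys (-x0) h) - j -
        ix (k + 1) (x1 - h.1) - ix (k + 1) (x2 - h.2.1)) (x1 - h.1) *ᵥ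
          b x0 (k + τ) x1 x2) := by
    intro x0 k
    refine shift_le _ _ h.1 (fun y _ => sum_nonneg fun _ _ => nsq_nonneg _)
      (fun x' _ h1 => ?_) fun x' _ h1 => ?_
    · rw [add_sub_cancel_right]
      refine shift_le _ _ h.2.1 (fun y _ => nsq_nonneg _) (fun y' _ h2 => ?_)
        fun y' _ h2 => ?_
      · rw [add_sub_cancel_right]
        refine le_of_eq ?_
        congr 2
        unfold H747.shB H747.sft
        exact if_pos ⟨mem_iv.1 h1, mem_iv.1 h2⟩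
      · refine le_of_eq ?_
        have e : shB K (cx K x) h (b x0) (k + τ) x' y' = 0 := by
          unfold H747.shB H747.sft
          exact if_neg fun hh => h2 (mem_iv.2 hh.2)
        rw [e, mulVec_zero]
        unfold nsq
        exact zero_dotProduct _
    · refine sum_nonpos fun y' _ => le_of_eq ?_
      have e : shB K (cx K x) h (b x0) (k + τ) x' y' = 0 := by
        unfold H747.shB H747.sft
        exact if_neg fun hh => h1 (mem_iv.2 hh.1)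
      rw [e, mulVec_zero]
      unfold nsq
      exact zero_dotProduct _
  refine (sum_le_sum fun x0 _ => sum_le_sum fun k _ => hx0 x0 k).trans ?_
  have e1 : ∑ x0 ∈ iv K t, ∑ k ∈ range K, ∑ x1 ∈ iv K (ix K x.1), ∑ x2 ∈ iv K (ix K x.2.1),
      nsq (DQ (RgS R h.2.2 h.1 x0) (k + 1) (ix (k + 1) (ys (-x0) h) - j -
        ix (k + 1) (x1 - h.1) - ix (k + 1) (x2 - h.2.1)) (x1 - h.1) *ᵥ b x0 (k + τ) x1 x2) =
      ∑ x1 ∈ iv K (ix K x.1), ∑ x0 ∈ iv K t, ∑ k ∈ range K, ∑ x2 ∈ iv K (ix K x.2.1),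
      nsq (DQ (RgS R h.2.2 h.1 x0) (k + 1) (ix (k + 1) (ys (-x0) h) - j -
        ix (k + 1) (x1 - h.1) - ix (k + 1) (x2 - h.2.1)) (x1 - h.1) *ᵥ
          b x0 (k + τ) x1 x2) := by
    rw [sum_comm (s := iv K (ix K x.1))]
    exact sum_congr rfl fun x0 _ => sum_comm
  rw [e1]
  refine (sum_le_sum fun x1 hx1 => x1_le ht ht1 he hs hr hKn ho hC hF hD hσ1 hσ2 hR t h hj hτ
    hx1).trans ?_
  rw [← mul_sum, ← mul_sum]
  have h3 : ∑ x1 ∈ iv K (ix K x.1), (GT u x1 K (ix K x.2.1)).trace ≤ s * 2 ^ K := by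
    simp only [GT_trace]
    rw [← mul_sum]
    have h4 := H58.mass_u hC.toCls
    have h5 := mul_le_mul_of_nonneg_left h4 (by positivity : (0 : ℝ) ≤ ((2 : ℝ) ^ K)⁻¹)
    refine h5.trans (le_of_eq ?_)
    have e4 : (4 : ℝ) ^ K = 2 ^ K * 2 ^ K := by rw [← mul_pow]; norm_num
    rw [e4]
    field_simp
  have h6 := log_lam (p := p) (s := s) (r := r) ht ht1 he0 hs hr
  have hlog : 0 ≤ Real.log (r / p.t) := Real.log_nonneg (by rw [le_div_iff₀ ht]; linarith)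
  have h7 : p.e * 4 ^ K * ∑ x1 ∈ iv K (ix K x.1), (GT u x1 K (ix K x.2.1)).trace ≤
      p.e * 4 ^ K * (s * 2 ^ K) := mul_le_mul_of_nonneg_left h3 (by positivity)
  have e8 : (8 : ℝ) ^ K = 4 ^ K * 2 ^ K := by rw [← mul_pow]; norm_num
  have h9 : 0 ≤ 1 + Real.log (1 + 4 * lam1 p s r / p.lam s r) := by
    have : 0 ≤ Real.log (1 + 4 * lam1 p s r / p.lam s r) := Real.log_nonneg (by
      have : 0 ≤ 4 * lam1 p s r / p.lam s r := by positivity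
      linarith)
    linarith
  have h10 : 0 ≤ p.e * 4 ^ K * (s * 2 ^ K) := by positivity
  calc _ ≤ 120000000 * (2 * ((8 : ℕ) : ℝ) + 13) ^ 4 *
        (1 + Real.log (1 + 4 * lam1 p s r / p.lam s r)) * (p.e * 4 ^ K * (s * 2 ^ K)) :=
        mul_le_mul_of_nonneg_left h7 (mul_nonneg (by positivity) h9)
    _ ≤ 120000000 * (2 * ((8 : ℕ) : ℝ) + 13) ^ 4 * (10 * (1 + Real.log (r / p.t))) *
        (p.e * 4 ^ K * (s * 2 ^ K)) :=
        mul_le_mul_of_nonneg_right (mul_le_mul_of_nonneg_left h6 (by positivity)) h10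
    _ ≤ 10 ^ 15 * (1 + Real.log (r / p.t)) * (p.e * s * 8 ^ K) := by
        rw [e8]
        have h11 : 0 ≤ (1 + Real.log (r / p.t)) * (p.e * s * (4 ^ K * 2 ^ K)) := by positivity
        push_cast
        nlinarith

/-- **The number `ZV` of `H585.PairRX`** (hypothesis `hV2` of `RX_BC`). -/
theorem ev_ZV (ht : 0 < p.t) (ht1 : p.t ≤ 1) (he0 : 0 ≤ p.e0) (he : 0 ≤ p.e) (hs : 0 < s)
    (hr : 1 ≤ r) (hKn : K ≤ n) (ho : o = 1 ∨ o = -1) (hC : ClsM K x s r P κ0 U g u v)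
    (hF : FibU p K x s r U u)
    (hD : FDs p n ez F1 F2 F3 K x s r U g u v A b C Q1 Q2 Q3 v')
    (hS : SlotN (p.al U K) o K (cx K x) (p.lam s r) u R κ E)
    (t : ℤ) (h : Pt) {j : ℤ} (hj : j ∈ Icc (0 : ℤ) 2) (q : Pt) :
    ∑ x0 ∈ iv K t, H585.PairRX.ZV 0 K ((cx K x).2.1 - q.2.1) ((cx K x).1 - q.1)
      (fun k => ix k (ys (-x0) h) - j) (H585.PairRX.DR R h x0)
      (H747.MSb K (cx K x) b h x0) ≤
      10 ^ 15 * (1 + Real.log (r / p.t)) * (p.e * s * 8 ^ K) := by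
  refine le_trans (le_of_eq ?_) (ev_pt ht ht1 he0 he hs hr hKn ho hC hF hD hS t h hj
    (Nat.zero_le 1) ((cx K x).1 - q.1) ((cx K x).2.1 - q.2.1))
  refine sum_congr rfl fun x0 _ => ?_
  unfold H585.PairRX.ZV
  rw [range_eq_Ico]
  refine sum_congr rfl fun k _ => sum_congr rfl fun x' _ => sum_congr rfl fun y' _ => ?_
  have hs' : ∀ w x', (R x0 0 w x')ᵀ = R x0 0 w x' := fun w x' => hS.symm x0 0 (Nat.zero_le K) w x'
  have hsy : ∀ k n x', (RgS R h.2.2 h.1 x0 k n x')ᵀ = RgS R h.2.2 h.1 x0 k n x' := by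
    intro k n x'
    unfold H747.RgS
    rw [transpose_smul, transpose_sum]
    congr 1
    exact sum_congr rfl fun w _ => hs' _ _
  unfold H585.PairRX.DR
  rw [H43.Seam.DQ_symm hsy]
  unfold nsq dotProduct
  refine sum_congr rfl fun i _ => ?_
  rw [sq]
  rfl

end cls

end

end Vale.Agent.P141.H796
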